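import Vale.Agent.P281.H152.K.Chart
import Vale.Agent.P281.H64.SpecG
import Vale.Agent.P281.H64.Thin.Defs

/-!
# P281, project T-W, block W2-C (helper167): general position

`h : Z → Y` is a submersion over `Y ∖ S`, `Z` compact, `H_k` thin in `Z`. Then there are thin sets
`H'_k` of `Y` such that `⋃ H_k` contains no open subset of the fibres over `y ∉ S ∪ ⋃ H'_k`.
-/

open Set Filter Metric
open Vale.Agent.P281.H64 (Cm)
open Vale.Agent.P281.H64.Thin (IsThinSet)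
open scoped Topology ContDiff Manifold

noncomputable section

namespace Vale.Agent.P281.H167.TW
open H152.K

/-- local form of the general position theorem -/
theorem local_gen (q c : ℕ) {Z Y : Type} [TopologicalSpace Z] [ChartedSpace (Cm (q + c)) Z]
    [IsManifold 𝓘(ℂ, Cm (q + c)) ω Z] [TopologicalSpace Y] [T2Space Y] [ChartedSpace (Cm q) Y]
    [IsManifold 𝓘(ℂ, Cm q) ω Y] (h : Z → Y)
    (hh : ContMDiff 𝓘(ℂ, Cm (q + c)) 𝓘(ℂ, Cm q) ω h) {z₁ : Z}
    (hs : Function.Surjective (mfderiv 𝓘(ℂ, Cm (q + c)) 𝓘(ℂ, Cm q) h z₁)) {H : Set Z}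
    (hH : IsThinSet (Cm (q + c)) H) :
    ∃ N ∈ 𝓝 z₁, ∃ T : Set Y, IsThinSet (Cm q) T ∧ ∀ z ∈ N, h z ∉ T → ∀ U : Set Z, IsOpen U →
      z ∈ U → ∃ z' ∈ U, h z' = h z ∧ z' ∉ H := by
  obtain ⟨-, hH⟩ := hH
  obtain ⟨g, hg, hg0, hgH⟩ := hH z₁
  set χ := chartAt (Cm q) (h z₁) with hχ
  have hχa : χ ∈ atlas (Cm q) Y := chart_mem_atlas _ _
  have hχm : χ ∈ IsManifold.maximalAtlas 𝓘(ℂ, Cm q) ω Y := IsManifold.subset_maximalAtlas hχa
  have hx1 : h z₁ ∈ χ.source := mem_chart_source _ _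
  obtain ⟨c₀, hc₀, hP₀⟩ := exists_prodChart (p := q) (d := c) hh hχa hx1 hs
  obtain ⟨C, δ, hδ, hP, hzC, hCz, hball⟩ := hP₀.center hc₀
  set a : Cm q := χ (h z₁) with ha
  -- the eventual properties near `(a, 0)`
  have hCt : (a, (0 : Cm c)) ∈ C.target := by rw [← hCz]; exact C.map_source hzC
  have hCs : C.symm (a, 0) = z₁ := by rw [← hCz]; exact C.left_inv hzC
  have hcont : Tendsto C.symm (𝓝 (a, (0 : Cm c))) (𝓝 z₁) := by
    have := C.continuousAt_symm hCt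
    rw [ContinuousAt, hCs] at this
    exact this
  have hg1 : ∀ᶠ z in 𝓝 z₁, ContMDiffAt 𝓘(ℂ, Cm (q + c)) 𝓘(ℂ, ℂ) ω g z :=
    (contMDiffAt_iff_contMDiffAt_nhds (by simp)).1 hg
  have hA : ∀ᶠ w : Cm q × Cm c in 𝓝 (a, (0 : Cm c)), w ∈ C.target ∧
      ContMDiffAt 𝓘(ℂ, Cm (q + c)) 𝓘(ℂ, ℂ) ω g (C.symm w) ∧
      (C.symm w ∈ H → g (C.symm w) = 0) ∧ w.1 ∈ χ.target := by
    have h1 : ∀ᶠ w : Cm q × Cm c in 𝓝 (a, (0 : Cm c)), w ∈ C.target :=
      C.open_target.mem_nhds hCt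
    have h2 : ∀ᶠ w : Cm q × Cm c in 𝓝 (a, (0 : Cm c)), w.1 ∈ χ.target :=
      continuousAt_fst.eventually (χ.open_target.mem_nhds (χ.map_source hx1))
    exact h1.and ((hcont.eventually hg1).and ((hcont.eventually hgH).and h2))
  obtain ⟨r, hr, hrA⟩ := Metric.eventually_nhds_iff_ball.1 hA
  have hmem : ∀ t ∈ ball a r, ∀ v ∈ ball (0 : Cm c) r, (t, v) ∈ ball (a, (0 : Cm c)) r := by
    intro t ht v hv
    rw [mem_ball, Prod.dist_eq]
    exact max_lt ht hv
  set G : Cm q × Cm c → ℂ := fun w => g (C.symm w) with hG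
  have hGa : ∀ w ∈ ball (a, (0 : Cm c)) r, AnalyticAt ℂ G w := by
    intro w hw
    obtain ⟨h1, h2, -, -⟩ := hrA w hw
    have h3 : ContMDiffAt 𝓘(ℂ, Cm q × Cm c) 𝓘(ℂ, Cm (q + c)) ω C.symm w :=
      (hP.symm_hol w h1).contMDiffAt (C.open_target.mem_nhds h1)
    have h4 : ContMDiffAt 𝓘(ℂ, Cm q × Cm c) 𝓘(ℂ, ℂ) ω G w := ContMDiffAt.comp w h2 h3
    exact h4.contDiffAt.analyticAt
  -- a point where `G` is not zero
  obtain ⟨w₁, hw₁, hGw⟩ : ∃ w ∈ ball (a, (0 : Cm c)) r, G w ≠ 0 := by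
    by_contra hcon
    push Not at hcon
    apply hg0
    have h1 : ∀ᶠ z in 𝓝 z₁, C z ∈ ball (a, (0 : Cm c)) r := by
      have := C.continuousAt hzC
      rw [ContinuousAt, hCz] at this
      exact this.eventually (ball_mem_nhds _ hr)
    filter_upwards [h1, C.open_source.mem_nhds hzC] with z hz hz2
    have h2 := hcon _ hz
    rw [hG] at h2
    simp only [C.left_inv hz2] at h2
    exact h2
  obtain ⟨t₁, v₁⟩ := w₁
  have htv : t₁ ∈ ball a r ∧ v₁ ∈ ball (0 : Cm c) r := by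
    rw [mem_ball, Prod.dist_eq] at hw₁
    exact ⟨lt_of_le_of_lt (le_max_left _ _) hw₁, lt_of_le_of_lt (le_max_right _ _) hw₁⟩
  -- the function `G(·, v₁)`
  have hGv : AnalyticOnNhd ℂ (fun t => G (t, v₁)) (ball a r) := by
    intro t ht
    have h1 := hGa _ (hmem t ht v₁ htv.2)
    have h2 : AnalyticAt ℂ (fun t : Cm q => (t, v₁)) t := analyticAt_id.prod analyticAt_const
    exact AnalyticAt.fun_comp h1 h2
  have hr2 : closedBall a (r / 2) ⊆ ball a r := closedBall_subset_ball (by linarith)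
  have hbt : ball a r ⊆ χ.target := fun t ht =>
    (hrA _ (hmem t ht 0 (mem_ball_self hr))).2.2.2
  set K : Set (Cm q) := closedBall a (r / 2) ∩ {t | G (t, v₁) = 0} with hK
  have hKc : IsCompact K := by
    have h1 : ContinuousOn (fun t => G (t, v₁)) (closedBall a (r / 2)) :=
      hGv.continuousOn.mono hr2
    have h2 : IsClosed K := h1.preimage_isClosed_of_isClosed isClosed_closedBall isClosed_singleton
    exact (isCompact_closedBall a (r / 2)).of_isClosed_subset h2 inter_subset_left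
  set T : Set Y := χ.symm '' K with hT
  have hKt : K ⊆ χ.target := fun t ht => hbt (hr2 ht.1)
  have hTcl : IsClosed T := (hKc.image_of_continuousOn (χ.continuousOn_symm.mono hKt)).isClosed
  refine ⟨C.source ∩ C ⁻¹' ball (a, (0 : Cm c)) (r / 2), ?_, T, ⟨hTcl, ?_⟩, ?_⟩
  · refine inter_mem (C.open_source.mem_nhds hzC) ?_
    have := C.continuousAt hzC
    rw [ContinuousAt, hCz] at this
    exact this (ball_mem_nhds _ (by linarith))
  · -- thin
    intro y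
    by_cases hy : y ∈ T
    · obtain ⟨t₀, ht₀, rfl⟩ := hy
      have hts : χ.symm t₀ ∈ χ.source := χ.map_target (hKt ht₀)
      have hχt : χ (χ.symm t₀) = t₀ := χ.right_inv (hKt ht₀)
      refine ⟨fun y => G (χ y, v₁), ?_, ?_, ?_⟩
      · have h1 : ContMDiffAt 𝓘(ℂ, Cm q) 𝓘(ℂ, Cm q) ω χ (χ.symm t₀) :=
          contMDiffAt_of_mem_maximalAtlas hχm hts
        have h2 : ContMDiffAt 𝓘(ℂ, Cm q) 𝓘(ℂ, ℂ) ω (fun t => G (t, v₁)) (χ (χ.symm t₀)) := by
          rw [hχt]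
          exact (hGv t₀ (hr2 ht₀.1)).contDiffAt.contMDiffAt
        exact ContMDiffAt.comp (g := fun t => G (t, v₁)) _ h2 h1
      · intro h0
        have h1 : ∀ᶠ t in 𝓝 t₀, G (t, v₁) = 0 := by
          have h2 : Tendsto χ.symm (𝓝 t₀) (𝓝 (χ.symm t₀)) := χ.continuousAt_symm (hKt ht₀)
          filter_upwards [h2.eventually h0, χ.open_target.mem_nhds (hKt ht₀)] with t ht ht'
          rwa [χ.right_inv ht'] at ht
        have h3 := hGv.eqOn_zero_of_preconnected_of_eventuallyEq_zero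
          (convex_ball a r).isPreconnected (hr2 ht₀.1) h1
        exact hGw (h3 htv.1)
      · refine Eventually.of_forall fun z hz => ?_
        obtain ⟨t, ht, rfl⟩ := hz
        show G (χ (χ.symm t), v₁) = 0
        rw [χ.right_inv (hKt ht)]
        exact ht.2
    · refine ⟨fun _ => 1, contMDiffAt_const, ?_, ?_⟩
      · intro h0
        exact one_ne_zero h0.self_of_nhds
      · filter_upwards [hTcl.isOpen_compl.mem_nhds hy] with z hz hz'
        exact absurd hz' hz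
  · rintro z ⟨hz, hzb⟩ hzT U hU hzU
    by_contra hcon
    push Not at hcon
    apply hzT
    obtain ⟨hfs, hfst⟩ := hP.fst z hz
    have hzb' : (C z).1 ∈ ball a (r / 2) ∧ (C z).2 ∈ ball (0 : Cm c) (r / 2) := by
      rw [mem_preimage, mem_ball, Prod.dist_eq] at hzb
      exact ⟨lt_of_le_of_lt (le_max_left _ _) hzb, lt_of_le_of_lt (le_max_right _ _) hzb⟩
    have hta : (C z).1 ∈ ball a r := ball_subset_ball (by linarith) hzb'.1
    have hva : (C z).2 ∈ ball (0 : Cm c) r := ball_subset_ball (by linarith) hzb'.2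
    have hev : ∀ᶠ v in 𝓝 (C z).2, G ((C z).1, v) = 0 := by
      have h1 : Tendsto (fun v : Cm c => C.symm ((C z).1, v)) (𝓝 (C z).2) (𝓝 z) := by
        have h2 : Tendsto C.symm (𝓝 (C z)) (𝓝 z) := by
          have := C.continuousAt_symm (C.map_source hz)
          rw [ContinuousAt, C.left_inv hz] at this
          exact this
        have h3 : Tendsto (fun v : Cm c => ((C z).1, v)) (𝓝 (C z).2) (𝓝 (C z)) :=
          (Continuous.prodMk_right (C z).1).tendsto _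
        exact h2.comp h3
      filter_upwards [h1.eventually (hU.mem_nhds hzU), isOpen_ball.mem_nhds hva] with v hv hvb
      have hb := hrA _ (hmem _ hta v hvb)
      have h4 := hP.fst _ (C.map_target hb.1)
      rw [C.right_inv hb.1] at h4
      have h5 : h (C.symm ((C z).1, v)) = h z := by
        have h6 : χ (h (C.symm ((C z).1, v))) = χ (h z) := by rw [← h4.2, ← hfst]
        exact χ.injOn h4.1 hfs h6
      exact hb.2.2.1 (hcon _ hv h5)
    have hGt : AnalyticOnNhd ℂ (fun v => G ((C z).1, v)) (ball 0 r) := by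
      intro v hv
      have h1 := hGa _ (hmem _ hta v hv)
      have h2 : AnalyticAt ℂ (fun v : Cm c => ((C z).1, v)) v := analyticAt_const.prod analyticAt_id
      exact AnalyticAt.fun_comp h1 h2
    have h3 := hGt.eqOn_zero_of_preconnected_of_eventuallyEq_zero
      (convex_ball 0 r).isPreconnected hva hev htv.2
    refine ⟨(C z).1, ⟨ball_subset_closedBall hzb'.1, h3⟩, ?_⟩
    rw [hfst, χ.left_inv hfs]

/-- **W2-C**, with the hypotheses which are needed. -/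
theorem genpos' (q c : ℕ) {Z Y : Type} [TopologicalSpace Z] [T2Space Z] [CompactSpace Z]
    [ChartedSpace (Cm (q + c)) Z] [IsManifold 𝓘(ℂ, Cm (q + c)) ω Z] [TopologicalSpace Y]
    [T2Space Y] [ChartedSpace (Cm q) Y] [IsManifold 𝓘(ℂ, Cm q) ω Y] (h : Z → Y)
    (hh : ContMDiff 𝓘(ℂ, Cm (q + c)) 𝓘(ℂ, Cm q) ω h) (S : Set Y)
    (hs : ∀ z, h z ∉ S → Function.Surjective (mfderiv 𝓘(ℂ, Cm (q + c)) 𝓘(ℂ, Cm q) h z))
    (H : ℕ → Set Z) (hH : ∀ k, IsThinSet (Cm (q + c)) (H k)) :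
    ∃ H' : ℕ → Set Y, (∀ k, IsThinSet (Cm q) (H' k)) ∧ ∀ y, y ∉ S → (∀ k, y ∉ H' k) →
      ∀ U : Set Z, IsOpen U → ∀ z₀ ∈ U, h z₀ = y → ∃ z ∈ U, h z = y ∧ ∀ k, z ∉ H k := by
  classical
  have : SecondCountableTopology Z :=
    ChartedSpace.secondCountable_of_sigmaCompact (Cm (q + c)) Z
  have key : ∀ (k : ℕ) (z : Z), ∃ N ∈ 𝓝 z, ∃ T : Set Y, IsThinSet (Cm q) T ∧ (h z ∉ S →
      ∀ z' ∈ N, h z' ∉ T → ∀ U : Set Z, IsOpen U → z' ∈ U → ∃ z'' ∈ U, h z'' = h z' ∧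
        z'' ∉ H k) := by
    intro k z
    by_cases hz : h z ∈ S
    · refine ⟨univ, univ_mem, ∅, ⟨isClosed_empty, fun y => ⟨fun _ => 1, contMDiffAt_const, ?_, ?_⟩⟩,
        fun h1 => absurd hz h1⟩
      · intro h0
        exact one_ne_zero h0.self_of_nhds
      · exact Eventually.of_forall fun z hz => absurd hz (notMem_empty z)
    · obtain ⟨N, hN, T, hT, h1⟩ := local_gen q c h hh (hs z hz) (hH k)
      exact ⟨N, hN, T, hT, fun _ => h1⟩
  choose N hN T hT hmain using key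
  have hcount : ∀ k : ℕ, ∃ s : Set Z, s.Countable ∧ (∀ z ∈ s, h z ∉ S) ∧
      {z | h z ∉ S} ⊆ ⋃ z ∈ s, N k z := by
    intro k
    obtain ⟨s, hs1, hs2, hs3⟩ := TopologicalSpace.countable_cover_nhdsWithin
      (s := {z | h z ∉ S}) (f := N k) (fun z _ => mem_nhdsWithin_of_mem_nhds (hN k z))
    exact ⟨s, hs2, fun z hz => hs1 hz, hs3⟩
  choose s hsc hsS hscov using hcount
  -- enumerate the thin sets
  have henum : ∀ k, ∃ f : ℕ → Set Y, (∀ j, IsThinSet (Cm q) (f j)) ∧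
      ∀ z ∈ s k, ∃ j, f j = T k z := by
    intro k
    by_cases hne : (s k).Nonempty
    · obtain ⟨f, hf⟩ := (hsc k).exists_eq_range hne
      refine ⟨fun j => T k (f j), fun j => hT k _, fun z hz => ?_⟩
      rw [hf] at hz
      obtain ⟨j, hj⟩ := hz
      exact ⟨j, by simp only [hj]⟩
    · refine ⟨fun _ => ∅, fun j => ⟨isClosed_empty, fun y => ⟨fun _ => 1, contMDiffAt_const, ?_, ?_⟩⟩,
        fun z hz => absurd ⟨z, hz⟩ hne⟩
      · intro h0
        exact one_ne_zero h0.self_of_nhds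
      · exact Eventually.of_forall fun z hz => absurd hz (notMem_empty z)
  choose f hf1 hf2 using henum
  refine ⟨fun k => f (Nat.unpair k).1 (Nat.unpair k).2, fun k => hf1 _ _, ?_⟩
  intro y hyS hy U hU z₀ hz₀ hzy
  have hyf : ∀ k j, y ∉ f k j := by
    intro k j
    have h1 : y ∉ f (Nat.unpair (Nat.pair k j)).1 (Nat.unpair (Nat.pair k j)).2 :=
      hy (Nat.pair k j)
    rw [Nat.unpair_pair] at h1
    exact h1
  have hdense : ∀ k, ∀ z, h z = y → ∀ U : Set Z, IsOpen U → z ∈ U → ∃ z'' ∈ U, h z'' = y ∧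
      z'' ∉ H k := by
    intro k z hz V hV hzV
    have h1 : z ∈ ⋃ z ∈ s k, N k z := hscov k (by show h z ∉ S; rw [hz]; exact hyS)
    rw [mem_iUnion₂] at h1
    obtain ⟨x, hx, hzx⟩ := h1
    obtain ⟨j, hj⟩ := hf2 k x hx
    have h2 : h z ∉ T k x := by rw [hz, ← hj]; exact hyf k j
    obtain ⟨z'', h3, h4, h5⟩ := hmain k x (hsS k x hx) z hzx h2 V hV hzV
    exact ⟨z'', h3, by rw [h4, hz], h5⟩
  -- Baire's theorem on the fibre
  let F := {z : Z // h z = y}
  have hFc : IsClosed {z : Z | h z = y} := isClosed_singleton.preimage hh.continuous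
  have : CompactSpace F := isCompact_iff_compactSpace.1 hFc.isCompact
  have hopen : ∀ k, IsOpen {x : F | (x : Z) ∉ H k} := fun k =>
    (hH k).1.isOpen_compl.preimage continuous_subtype_val
  have hden : ∀ k, Dense {x : F | (x : Z) ∉ H k} := by
    intro k
    rw [dense_iff_inter_open]
    rintro V hV ⟨x, hx⟩
    obtain ⟨W, hW, rfl⟩ := isOpen_induced_iff.1 hV
    obtain ⟨z, hz1, hz2, hz3⟩ := hdense k x.1 x.2 W hW hx
    exact ⟨⟨z, hz2⟩, hz1, hz3⟩
  have hB : Dense (⋂ k, {x : F | (x : Z) ∉ H k}) := dense_iInter_of_isOpen hopen hden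
  rw [dense_iff_inter_open] at hB
  obtain ⟨x, hx1, hx2⟩ := hB ((fun x : F => (x : Z)) ⁻¹' U) (hU.preimage continuous_subtype_val)
    ⟨(⟨z₀, hzy⟩ : F), hz₀⟩
  rw [mem_iInter] at hx2
  exact ⟨x.1, hx1, x.2, hx2⟩

/-- **W2-C** (literal of the board). -/
theorem genpos (q c : ℕ) {Z Y : Type} [TopologicalSpace Z] [T2Space Z] [CompactSpace Z]
    [ChartedSpace (Cm (q + c)) Z] [IsManifold 𝓘(ℂ, Cm (q + c)) ω Z] [TopologicalSpace Y]
    [T2Space Y] [ChartedSpace (Cm q) Y] [IsManifold 𝓘(ℂ, Cm q) ω Y] (h : Z → Y)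
    (hh : ContMDiff 𝓘(ℂ, Cm (q + c)) 𝓘(ℂ, Cm q) ω h) (S : Set Y)
    (hP : H64.IsProperFibration (n := q + c) (p := q) h S) (H : ℕ → Set Z)
    (hH : ∀ k, IsThinSet (Cm (q + c)) (H k)) :
    ∃ H' : ℕ → Set Y, (∀ k, IsThinSet (Cm q) (H' k)) ∧ ∀ y, y ∉ S → (∀ k, y ∉ H' k) →
      ∀ U : Set Z, IsOpen U → ∀ z₀ ∈ U, h z₀ = y → ∃ z ∈ U, h z = y ∧ ∀ k, z ∉ H k :=
  genpos' q c h hh S hP.submersive H hH

end Vale.Agent.P281.H167.TW
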